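import Vale.Agent.P307.R2.H732.Q1

universe u

namespace Vale.Agent.Results.P307.AFull

open FirstOrder Cardinal Vale.Agent.P307

/-- **Shelah's eventual categoricity conjecture.** For every cardinal `l` there is a cardinal
`μ ≥ l` such that every abstract elementary class `K`, in any vocabulary, with `LS(K) ≤ l`, which
is categorical in some `κ ≥ μ`, is categorical in every `κ' ≥ μ`. -/
theorem result (l : Cardinal.{u}) :
    ∃ μ : Cardinal.{u}, l ≤ μ ∧ ∀ (L : Language.{u, u}) (K : AEC L), K.LS ≤ l →
      ∀ κ, μ ≤ κ → K.CategoricalIn κ → ∀ κ', μ ≤ κ' → K.CategoricalIn κ' :=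
  Vale.Agent.P307.R2.H732.q1 l

end Vale.Agent.Results.P307.AFull
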