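import Vale.Agent.P307.R2.H476.Unif

universe u

namespace Vale.Agent.Results.P307.GoodFrames

open FirstOrder Cardinal Vale.Agent.P307 Vale.Agent.P307.R2.H476

/-- Good frames in ZFC, from one categoricity cardinal. For every cardinal `l` there are `μ ≥ l` and
a closed unbounded class `D` of cardinals such that for every abstract elementary class `K` with
`LS(K) ≤ l` which is categorical in one cardinal `κ ≥ μ`:
(1) for every `θ ∈ D` of cofinality `ω`, `K` is categorical in `θ`; strong extensions of cardinality
at most `θ⁺` of members of cardinality `θ` can be amalgamated, those of cardinality `θ` disjointly;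
all members of cardinality at least the next element of `D` are saturated over their strong
substructures of cardinality `θ`; there is exactly one saturated member `C` of cardinality `θ⁺`, in
which all members of cardinality `θ` and `θ⁺` embed, and it carries a good frame: an independence
relation with symmetry, transitivity, existence, uniqueness and local character, tameness, unique
free amalgams, prime models over a model and finitely many elements, a minimal type, and uniqueness
of prime systems in all finite dimensions.
(2) If, for one `θ ∈ D` of cofinality `ω`, prime models exist in `C` over the boundaries of the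
independent systems with at least two points, then `K` is categorical in every `κ' ≥ μ`. -/
theorem result (l : Cardinal.{u}) :
    ∃ μ : Cardinal.{u}, l ≤ μ ∧ ∃ D : Set Cardinal.{u}, IsClub D ∧
      ∀ (L : Language.{u, u}) (K : AEC L), K.LS ≤ l → (∃ κ, μ ≤ κ ∧ K.CategoricalIn κ) →
        (∀ θ ∈ D, θ.ord.cof = ℵ₀ → K.CategoricalIn θ ∧ Amalgamation K θ ∧
          DisjointAmalgamation K θ ∧
          (∀ θ' ∈ D, θ < θ' → ∀ (M : Type u) [L.Structure M], K.mem M → θ' ≤ #M →
            Saturated K θ M) ∧
          (∃ (C : Type u) (_ : L.Structure C), K.mem C ∧ #C = Order.succ θ ∧ Saturated K θ C) ∧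
          ∀ (C : Type u) [L.Structure C], K.mem C → #C = Order.succ θ → Saturated K θ C →
            (∀ (C' : Type u) [L.Structure C'], K.mem C' → #C' = Order.succ θ →
              Saturated K θ C' → Nonempty (C ≃[L] C')) ∧
            (∀ (B : Type u) [L.Structure B], K.mem B → θ ≤ #B → #B ≤ Order.succ θ →
              ∃ f : B ↪[L] C, Strong K f) ∧
            GoodFrame K θ C) ∧
        ((∃ θ ∈ D, θ.ord.cof = ℵ₀ ∧ ∃ (C : Type u) (_ : L.Structure C), K.mem C ∧
          #C = Order.succ θ ∧ Saturated K θ C ∧ HasPrimes K θ C) →
            ∀ κ', μ ≤ κ' → K.CategoricalIn κ') :=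
  uniform_frames l

end Vale.Agent.Results.P307.GoodFrames
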