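import Vale.Agent.P307.R2.H301.Unif

universe u

namespace Vale.Agent.Results.P307.Intersections

open FirstOrder Cardinal Vale.Agent.P307

/-- For every `l` there is `μ ≥ l` such that every abstract elementary class `K` with `LS(K) ≤ l`
which admits intersections over large sets (there is a cardinal `x` such that for every member `N`
and every `A ⊆ N` of size at least `x` the intersection of all strong substructures of `N`
containing `A` is a strong substructure of `N`) and which is categorical in one cardinal `κ ≥ μ` is
categorical in every cardinal `κ' ≥ μ`. -/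
theorem result (l : Cardinal.{u}) : ∃ μ : Cardinal.{u}, l ≤ μ ∧
    ∀ (L : Language.{u, u}) (K : AEC L), K.LS ≤ l →
      (∃ x : Cardinal.{u}, ∀ (N : Type u) [L.Structure N], K.mem N → ∀ A : Set N, x ≤ #A →
        K.le (sInf {S : L.Substructure N | K.le S ∧ A ⊆ S})) →
      ∀ κ : Cardinal.{u}, μ ≤ κ → K.CategoricalIn κ →
        ∀ κ' : Cardinal.{u}, μ ≤ κ' → K.CategoricalIn κ' := by
  obtain ⟨μ, h1, h2⟩ := Vale.Agent.P307.R2.H301.q1_inter l
  exact ⟨μ, h1, fun L K hK hI κ hκ hcat κ' hκ' => h2 L K hK hI ⟨κ, hκ, hcat⟩ κ' hκ'⟩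

end Vale.Agent.Results.P307.Intersections
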