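import Vale.Agent.P307.R2.H287.Two

universe u

namespace Vale.Agent.Results.P307.OneCardinal

open FirstOrder Cardinal Vale.Agent.P307 Vale.Agent.P307.H304

/-- (1) For every `l` there are `μ ≥ l` and a closed unbounded class `C` of cardinals such that
every abstract elementary class `K` with `LS(K) ≤ l` which is categorical in one cardinal `κ ≥ μ`
(no condition on `κ`) is categorical in all `θ ∈ C` of cofinality `ω`, and for all `θ ∈ C` the
members of `K` of cardinality at least `θ` are exactly the structures of cardinality at least `θ`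
which are `L_{∞,θ}`-equivalent to a given member, and strong substructures are the
`L_{∞,θ}`-elementary ones.
(2) For every infinite `l` there is `τ` such that, if `LS(K) ≤ l` and `K` is categorical in `κ₁` and
in `κ₂` with `τ ≤ κ₁` and `κ₁ ^ l ≤ κ₂`, then all members of cardinality at least `κ₁` are
`L_{∞,l⁺}`-equivalent and all strong substructures of cardinality at least `κ₁` are
`L_{∞,l⁺}`-elementary. -/
theorem result :
    (∀ l : Cardinal.{u}, ∃ μ : Cardinal.{u}, l ≤ μ ∧ ∃ C : Set Cardinal.{u}, IsClub C ∧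
      ∀ (L : Language.{u, u}) (K : AEC L), K.LS ≤ l →
        (∃ κ, μ ≤ κ ∧ K.CategoricalIn κ) →
        ∀ θ ∈ C, (θ.ord.cof = ℵ₀ → K.CategoricalIn θ) ∧
          (∃ (M : Type u) (_ : L.Structure M), K.mem M ∧ #M = θ) ∧
          (∀ (M N : Type u) [L.Structure M] [L.Structure N], K.mem M → θ ≤ #M → θ ≤ #N →
            (K.mem N ↔ InfEq L θ M N)) ∧
          (∀ (N : Type u) [L.Structure N] (S : L.Substructure N), K.mem N → θ ≤ #S →
            (K.le S ↔ InfElem L θ S))) ∧
    (∀ l : Cardinal.{u}, ℵ₀ ≤ l → ∃ τ : Cardinal.{u}, l ≤ τ ∧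
      ∀ (L : Language.{u, u}) (K : AEC L), K.LS ≤ l →
        ∀ κ₁ κ₂ : Cardinal.{u}, τ ≤ κ₁ → κ₁ ^ l ≤ κ₂ → K.CategoricalIn κ₁ → K.CategoricalIn κ₂ →
          (∀ (M N : Type u) [L.Structure M] [L.Structure N], K.mem M → K.mem N → κ₁ ≤ #M →
            κ₁ ≤ #N → InfEq L (Order.succ l) M N) ∧
          (∀ (N : Type u) [L.Structure N] (S : L.Substructure N), K.le S → κ₁ ≤ #S →
            InfElem L (Order.succ l) S)) :=
  ⟨Vale.Agent.P307.R2.H287.uniform_club_one, Vale.Agent.P307.R2.H287.two_cardinals⟩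

end Vale.Agent.Results.P307.OneCardinal
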